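import Vale.Agent.Lib.P170B.Main
import Vale.Agent.Lib.P170.Final

/-!
# P170: formulas as matrices

A `k`-SAT formula with `m` clauses on `n` variables is an `m × n` matrix `F` with entries in
`Option Bool`: the entry `F j i` is `none` if the variable `x_i` does not occur in the clause `j`,
`some true` if the literal `x_i` occurs and `some false` if its negation occurs.
-/

namespace Vale.Agent.P170D

open Filter Topology Vale.Agent.P170 Vale.Agent.P170B

/-- the row of a clause -/
def row {k n : ℕ} (D : Clause k n) (i : Fin n) : Option Bool :=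
  if h : i ∈ D.vars then some (D.sign ⟨i, h⟩) else none

theorem row_of_mem {k n : ℕ} (D : Clause k n) {i : Fin n} (h : i ∈ D.vars) :
    row D i = some (D.sign ⟨i, h⟩) := dif_pos h

theorem row_of_notMem {k n : ℕ} (D : Clause k n) {i : Fin n} (h : i ∉ D.vars) :
    row D i = none := dif_neg h

theorem row_ne_none {k n : ℕ} (D : Clause k n) (i : Fin n) : row D i ≠ none ↔ i ∈ D.vars := by
  by_cases h : i ∈ D.vars
  · rw [row_of_mem D h]
    exact ⟨fun _ => h, fun _ => Option.some_ne_none _⟩
  · rw [row_of_notMem D h]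
    exact ⟨fun h' => absurd rfl h', fun h' => absurd h' h⟩

theorem row_card {k n : ℕ} (D : Clause k n) : Nat.card {i // row D i ≠ none} = k := by
  have e : {i // row D i ≠ none} ≃ D.vars := Equiv.subtypeEquivRight fun i => row_ne_none D i
  rw [Nat.card_congr e, Nat.card_eq_fintype_card, Fintype.card_coe, D.card_vars]

theorem row_inj {k n : ℕ} : Function.Injective (row (k := k) (n := n)) := by
  intro D D' h
  have hv : D.vars = D'.vars := by
    ext i
    rw [← row_ne_none, ← row_ne_none, h]
  refine clause_ext hv fun v hv hv' => ?_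
  have h1 := congrFun h v
  rw [row_of_mem D hv, row_of_mem D' hv'] at h1
  exact Option.some_injective _ h1

theorem row_surj {k n : ℕ} (c : Fin n → Option Bool) (hc : Nat.card {i // c i ≠ none} = k) :
    ∃ D : Clause k n, row D = c := by
  classical
  refine ⟨⟨Finset.univ.filter fun i => c i ≠ none, ?_, fun v => (c v.1).getD true⟩, ?_⟩
  · rw [← hc, Nat.card_eq_fintype_card, Fintype.card_subtype]
  · funext i
    by_cases h : c i = none
    · rw [row_of_notMem _ (by simp [h]), h]
    · rw [row_of_mem _ (by simp [h])]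
      obtain ⟨b, hb⟩ := Option.ne_none_iff_exists'.1 h
      show some ((c i).getD true) = c i
      rw [hb]
      rfl

theorem holds_iff_row {k n : ℕ} (D : Clause k n) (x : Fin n → Bool) :
    D.Holds x ↔ ∃ i, row D i = some (x i) := by
  constructor
  · rintro ⟨v, hv⟩
    exact ⟨v.1, by rw [row_of_mem D v.2, hv]⟩
  · rintro ⟨i, hi⟩
    have h : i ∈ D.vars := (row_ne_none D i).1 (by rw [hi]; exact Option.some_ne_none _)
    rw [row_of_mem D h] at hi
    exact ⟨⟨i, h⟩, (Option.some_injective _ hi).symm⟩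

/-- the number of satisfiable formulas in the two encodings -/
theorem count_eq (k n m : ℕ) :
    Nat.card {F : Fin m → Fin n → Option Bool // (∀ j, Nat.card {i // F j i ≠ none} = k) ∧
      ∃ x : Fin n → Bool, ∀ j, ∃ i, F j i = some (x i)} =
    Nat.card {F : Fin m → Clause k n // ∃ σ : Fin n → Bool, ∀ i, (F i).Holds σ} := by
  symm
  refine Nat.card_congr (Equiv.ofBijective (fun F => ⟨fun j => row (F.1 j),
    fun j => row_card (F.1 j), ?_⟩) ⟨?_, ?_⟩)
  · obtain ⟨σ, hσ⟩ := F.2
    exact ⟨σ, fun j => (holds_iff_row _ _).1 (hσ j)⟩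
  · intro F G h
    refine Subtype.ext (funext fun j => row_inj ?_)
    exact congrFun (Subtype.ext_iff.1 h) j
  · rintro ⟨F, hF, x, hx⟩
    choose D hD using fun j => row_surj (F j) (hF j)
    refine ⟨⟨D, x, fun j => (holds_iff_row _ _).2 ?_⟩, Subtype.ext (funext hD)⟩
    rw [hD]
    exact hx j

/-- the number of all formulas -/
theorem card_formulas (k n m : ℕ) :
    Nat.card {F : Fin m → Fin n → Option Bool // ∀ j, Nat.card {i // F j i ≠ none} = k} =
      (2 ^ k * n.choose k) ^ m := by
  have h : Nat.card (Fin m → Clause k n) = (2 ^ k * n.choose k) ^ m := by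
    rw [Nat.card_fun, card_clause, Nat.card_eq_fintype_card, Fintype.card_fin]
  rw [← h]
  symm
  refine Nat.card_congr (Equiv.ofBijective (fun F => ⟨fun j => row (F j),
    fun j => row_card (F j)⟩) ⟨?_, ?_⟩)
  · intro F G h
    exact funext fun j => row_inj (congrFun (Subtype.ext_iff.1 h) j)
  · rintro ⟨F, hF⟩
    choose D hD using fun j => row_surj (F j) (hF j)
    exact ⟨D, Subtype.ext (funext hD)⟩

theorem satProb_eq_matrix (k n m : ℕ) : satProb k n m =
    (Nat.card {F : Fin m → Fin n → Option Bool // (∀ j, Nat.card {i // F j i ≠ none} = k) ∧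
      ∃ x : Fin n → Bool, ∀ j, ∃ i, F j i = some (x i)} : ℝ) / (2 ^ k * (n.choose k : ℝ)) ^ m := by
  rw [Vale.Agent.P170B.satProb_eq, count_eq]
  push_cast
  rfl

theorem satProb_anti {k n : ℕ} (hkn : k ≤ n) {m m' : ℕ} (h : m ≤ m') :
    satProb k n m' ≤ satProb k n m := by
  obtain ⟨Ω, mΩ, P, C, hC⟩ := exists_process k n hkn
  rw [← prob_sat hC, ← prob_sat hC]
  exact sat_antitone hC h

theorem friedgut {k : ℕ} {α : ℝ} (hα : 0 < α)
    (h1 : ∀ c : ℝ, 0 ≤ c → c < α → Tendsto (fun n : ℕ => satProb k n ⌊c * n⌋₊) atTop (𝓝 1))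
    (h0 : ∀ c : ℝ, α < c → Tendsto (fun n : ℕ => satProb k n ⌊c * n⌋₊) atTop (𝓝 0))
    (r : ℕ → ℝ) (hr : ∀ ε : ℝ, 0 < ε →
      Tendsto (fun n : ℕ => satProb k n ⌊(r n - ε) * n⌋₊) atTop (𝓝 1) ∧
      Tendsto (fun n : ℕ => satProb k n ⌊(r n + ε) * n⌋₊) atTop (𝓝 0)) :
    Tendsto r atTop (𝓝 α) := by
  refine tendsto_order.2 ⟨fun a ha => ?_, fun a ha => ?_⟩
  · have hc0 : 0 ≤ max 0 ((a + α) / 2) := le_max_left _ _
    have hc1 : max 0 ((a + α) / 2) < α := max_lt hα (by linarith)
    have hε : 0 < (α - a) / 2 := by linarith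
    filter_upwards [(h1 _ hc0 hc1).eventually_const_lt (show (1 / 2 : ℝ) < 1 by norm_num),
      (hr _ hε).2.eventually_lt_const (show (0 : ℝ) < 1 / 2 by norm_num),
      eventually_ge_atTop k] with n hn1 hn2 hn3
    by_contra hc
    have h3 : (r n + (α - a) / 2) * n ≤ max 0 ((a + α) / 2) * n := by
      refine mul_le_mul_of_nonneg_right ?_ (Nat.cast_nonneg n)
      exact le_trans (by linarith [not_lt.1 hc]) (le_max_right _ _)
    have h4 := satProb_anti hn3 (Nat.floor_le_floor h3)
    linarith
  · have hc1 : α < (a + α) / 2 := by linarith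
    have hε : 0 < (a - α) / 2 := by linarith
    filter_upwards [(h0 _ hc1).eventually_lt_const (show (0 : ℝ) < 1 / 2 by norm_num),
      (hr _ hε).1.eventually_const_lt (show (1 / 2 : ℝ) < 1 by norm_num),
      eventually_ge_atTop k] with n hn1 hn2 hn3
    by_contra hc
    have h3 : (a + α) / 2 * n ≤ (r n - (a - α) / 2) * n := by
      refine mul_le_mul_of_nonneg_right ?_ (Nat.cast_nonneg n)
      linarith [not_lt.1 hc]
    have h4 := satProb_anti hn3 (Nat.floor_le_floor h3)
    linarith

end Vale.Agent.P170D
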